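import Vale.Agent.Lib.P120.UR.Main

open MeasureTheory Metric
open scoped ENNReal NNReal

namespace Vale.Agent.Results.P120.BoundedOperator

/-- `C⁻¹ r^n ≤ μ (B(x, r)) ≤ C r^n` for all `x ∈ supp μ` and `0 < r ≤ diam (supp μ)` (the diameter
may be infinite): `μ` is `n`-Ahlfors-David regular with constant `C`. -/
def ADRegularWith {d : ℕ} (n : ℕ) (C : ℝ) (μ : Measure (EuclideanSpace ℝ (Fin d))) : Prop :=
  ∀ x ∈ μ.support, ∀ r : ℝ, 0 < r → ENNReal.ofReal r ≤ ediam μ.support →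
    ENNReal.ofReal (C⁻¹ * r ^ n) ≤ μ (ball x r) ∧ μ (ball x r) ≤ ENNReal.ofReal (C * r ^ n)

/-- `h = R_{μ,ε} f` almost everywhere, where `R_{μ,ε}` is the truncated `n`-dimensional Riesz
transform: for `μ`-almost every `x`, the integral `∫_{|x-y|>ε} K_n(x-y) f(y) dμ(y)`,
`K_n(z) = z / |z|^(n+1)`, converges and equals `h(x)`. -/
def IsTruncatedRiesz {d : ℕ} (n : ℕ) (μ : Measure (EuclideanSpace ℝ (Fin d))) (ε : ℝ)
    (f : EuclideanSpace ℝ (Fin d) → ℝ)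
    (h : EuclideanSpace ℝ (Fin d) → EuclideanSpace ℝ (Fin d)) : Prop :=
  ∀ᵐ x ∂μ, IntegrableOn (fun y => (f y / ‖x - y‖ ^ (n + 1)) • (x - y)) {y | ε < ‖x - y‖} μ ∧
    h x = ∫ y in {y | ε < ‖x - y‖}, (f y / ‖x - y‖ ^ (n + 1)) • (x - y) ∂μ

/-- The Riesz transform is bounded on `L²(μ)` with constant `C`: for all real `f ∈ L²(μ)` and all
`ε > 0` the function `h = R_{μ,ε} f` satisfies `‖h‖_{L²(μ; ℝ^d)} ≤ C ‖f‖_{L²(μ)}`. -/
def RieszBoundedBy {d : ℕ} (n : ℕ) (C : ℝ≥0) (μ : Measure (EuclideanSpace ℝ (Fin d))) : Prop :=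
  ∀ f : EuclideanSpace ℝ (Fin d) → ℝ, MemLp f 2 μ → ∀ ε : ℝ, 0 < ε →
    ∃ h : EuclideanSpace ℝ (Fin d) → EuclideanSpace ℝ (Fin d),
      IsTruncatedRiesz n μ ε f h ∧ eLpNorm h 2 μ ≤ C * eLpNorm f 2 μ

/-- `μ` is uniformly `n`-rectifiable: there are `θ > 0` and `M` such that for all `x ∈ supp μ` and
`0 < r ≤ diam (supp μ)` some map `g`, `M`-Lipschitz on the ball `B(0, r)` of `ℝ^n`, satisfies
`μ (B(x, r) ∩ g (B(0, r))) ≥ θ r^n`. -/
def UniformlyRectifiable {d : ℕ} (n : ℕ) (μ : Measure (EuclideanSpace ℝ (Fin d))) : Prop :=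
  ∃ θ : ℝ, 0 < θ ∧ ∃ M : ℝ≥0, ∀ x ∈ μ.support, ∀ r : ℝ, 0 < r →
    ENNReal.ofReal r ≤ ediam μ.support →
    ∃ g : EuclideanSpace ℝ (Fin n) → EuclideanSpace ℝ (Fin d), LipschitzOnWith M g (ball 0 r) ∧
      ENNReal.ofReal (θ * r ^ n) ≤ μ (ball x r ∩ g '' ball 0 r)

/-- The David-Semmes problem.  Let `1 ≤ n < d` and let `μ` be a Radon (locally finite Borel) measure
on `ℝ^d` which is `n`-AD-regular with constant `C_AD`.  If the `n`-dimensional Riesz transform is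
bounded on `L²(μ)` with constant `C_R`, then `μ` is uniformly `n`-rectifiable. -/
theorem result (n d : ℕ) (hn : 1 ≤ n) (hnd : n < d)
    (μ : Measure (EuclideanSpace ℝ (Fin d))) [IsLocallyFiniteMeasure μ]
    (C_AD : ℝ) (hC : 1 ≤ C_AD) (hAD : ADRegularWith n C_AD μ)
    (C_R : ℝ≥0) (hR : RieszBoundedBy n C_R μ) :
    UniformlyRectifiable n μ := by
  refine Vale.Agent.P120.uniformlyRectifiable_of_rieszBounded hn hnd.le ⟨C_AD, hC, hAD⟩ ?_
  refine ⟨C_R, fun f hf ε hε => ?_⟩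
  obtain ⟨h, hh, hn⟩ := hR f hf ε hε
  have hker : ∀ x : EuclideanSpace ℝ (Fin d),
      (fun y => (f y / ‖x - y‖ ^ (n + 1)) • (x - y)) =
        fun y => f y • Vale.Agent.P120.rieszKernel n (x - y) := by
    intro x
    funext y
    unfold Vale.Agent.P120.rieszKernel
    rw [smul_smul, div_eq_mul_inv]
  have h1 : h =ᵐ[μ] Vale.Agent.P120.rieszTrunc n μ ε f := by
    filter_upwards [hh] with x hx
    rw [hx.2, hker]
    rfl
  constructor
  · filter_upwards [hh] with x hx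
    rw [← hker]
    exact hx.1
  · rw [← eLpNorm_congr_ae h1, ENNReal.ofReal_coe_nnreal]
    exact hn

end Vale.Agent.Results.P120.BoundedOperator
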