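import Vale.Agent.Lib.P120.UR.Main

open MeasureTheory Vale.Agent.P120

namespace Vale.Agent.Results.P120.DavidSemmes

/-- The David-Semmes problem in all dimensions and codimensions: for all integers `1 ≤ n < d`,
every `n`-Ahlfors-David regular Radon measure `μ` on `ℝ^d` whose `n`-dimensional Riesz transform
is bounded on `L²(μ)` is uniformly `n`-rectifiable. -/
theorem result : ∀ n d : ℕ, 1 ≤ n → n < d → ∀ μ : Measure (E d), IsLocallyFiniteMeasure μ →
    ADRegular n μ → RieszBounded n μ → UniformlyRectifiable n μ := by
  intro n d hn hnd μ hμ hAD hR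
  exact uniformlyRectifiable_of_rieszBounded hn hnd.le hAD hR

end Vale.Agent.Results.P120.DavidSemmes
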