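import Vale.Agent.Lib.P120.Main

open MeasureTheory Vale.Agent.P120

namespace Vale.Agent.Results.P120.FlatBalls

/-- If `μ` is `n`-AD-regular on `ℝ^d`, `1 ≤ n < d`, with `L²(μ)`-bounded Riesz transform, then every
ball centred on the support contains a ball centred on the support in which the support is
bilaterally `θ`-close to an `n`-plane, for every `θ > 0`. -/
theorem result : ∀ n d : ℕ, 1 ≤ n → n < d → ∀ μ : Measure (E d), IsLocallyFiniteMeasure μ →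
    ADRegular n μ → RieszBounded n μ → μ.support.Nontrivial →
    ∀ θ : ℝ, 0 < θ → ∀ x ∈ μ.support, ∀ r : ℝ, 0 < r →
      ∃ y ∈ μ.support, ∃ s : ℝ, 0 < s ∧ LeDiam s μ ∧ Metric.ball y s ⊆ Metric.ball x r ∧
        ∃ V : Submodule ℝ (E d), Module.finrank ℝ V = n ∧
          (∀ z ∈ μ.support, z ∈ Metric.ball y s → ∃ v ∈ V, ‖z - (y + v)‖ ≤ θ * s) ∧
          (∀ v ∈ V, ‖v‖ < s → ∃ z ∈ μ.support, ‖z - (y + v)‖ ≤ θ * s) := by
  intro n d hn hnd μ hμ hAD hR hS θ hθ x hx r hr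
  obtain ⟨x0, hx0, r0, hr0, hr0D, hsub, V, hV, h1, h2⟩ :=
    exists_flat_ball hn hnd.le hAD hR hS θ hθ x hx r hr
  refine ⟨x0, hx0, r0, hr0, hr0D, hsub, V, hV, ?_, h2⟩
  intro z hz hzb
  obtain ⟨v, hv, h3⟩ := h1 z hz hzb
  exact ⟨v, hv, by rwa [← sub_sub]⟩

end Vale.Agent.Results.P120.FlatBalls
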