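import Vale.Agent.Lib.P120.UR.Main

open MeasureTheory Metric Set Bornology
open scoped ENNReal NNReal

namespace Vale.Agent.Results.P120.RieszRegular

/-- `0 < r ≤ diam S`, where `diam S = ∞` if `S` is unbounded -/
def Scale {d : ℕ} (S : Set (EuclideanSpace ℝ (Fin d))) (r : ℝ) : Prop :=
  0 < r ∧ (IsBounded S → r ≤ diam S)

/-- `S` is the support of `μ`: the points all of whose balls have positive measure -/
def IsSupport {d : ℕ} (S : Set (EuclideanSpace ℝ (Fin d)))
    (μ : Measure (EuclideanSpace ℝ (Fin d))) : Prop :=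
  ∀ x, x ∈ S ↔ ∀ r : ℝ, 0 < r → μ (ball x r) ≠ 0

/-- `f(y) (x - y) / |x - y|^(n+1)` -/
noncomputable def integrand {d : ℕ} (n : ℕ) (f : EuclideanSpace ℝ (Fin d) → ℝ)
    (x y : EuclideanSpace ℝ (Fin d)) : EuclideanSpace ℝ (Fin d) :=
  (f y / dist x y ^ (n + 1)) • (x - y)

/-- the truncated Riesz transform of `f` at `x` -/
noncomputable def truncated {d : ℕ} (n : ℕ) (μ : Measure (EuclideanSpace ℝ (Fin d))) (ε : ℝ)
    (f : EuclideanSpace ℝ (Fin d) → ℝ) (x : EuclideanSpace ℝ (Fin d)) :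
    EuclideanSpace ℝ (Fin d) :=
  ∫ y in {y | ε < dist x y}, integrand n f x y ∂μ

/-- the integral of `‖R_ε f‖²` is at most `C` times the integral of `f²`, for all real `f` in
`L²(μ)` and all `ε > 0`; the integral `R_ε f(x)` is only asked to converge for `μ`-almost every `x` -/
def BoundedBy {d : ℕ} (n : ℕ) (μ : Measure (EuclideanSpace ℝ (Fin d))) (C : ℝ≥0) : Prop :=
  ∀ f : EuclideanSpace ℝ (Fin d) → ℝ, MemLp f 2 μ → ∀ ε : ℝ, 0 < ε →
    (∀ᵐ x ∂μ, IntegrableOn (integrand n f x) {y | ε < dist x y} μ) ∧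
      ∫⁻ x, ‖truncated n μ ε f x‖ₑ ^ 2 ∂μ ≤ C * ∫⁻ x, ‖f x‖ₑ ^ 2 ∂μ

/-- The David-Semmes problem.  `μ` is a Radon measure on `ℝ^d` (regular Borel measure, finite on
compact sets), `S` its support, `μ` is Ahlfors-David regular with constant `A`, and the Riesz
transform is bounded on `L²(μ)`.  Then `μ` is uniformly `n`-rectifiable; the Lipschitz maps are
defined on the ball `B(0, r)` of `ℝ^n` only. -/
theorem result (n d : ℕ) (hn : 1 ≤ n) (hnd : n < d) (μ : Measure (EuclideanSpace ℝ (Fin d)))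
    [μ.Regular] (S : Set (EuclideanSpace ℝ (Fin d))) (hS : IsSupport S μ)
    (A : ℝ) (hA : 1 ≤ A)
    (hAD : ∀ x ∈ S, ∀ r : ℝ, Scale S r →
      r ^ n / A ≤ μ.real (ball x r) ∧ μ.real (ball x r) ≤ A * r ^ n)
    (C : ℝ≥0) (hR : BoundedBy n μ C) :
    ∃ θ : ℝ, 0 < θ ∧ ∃ M : ℝ≥0, ∀ x ∈ S, ∀ r : ℝ, Scale S r →
      ∃ g : ball (0 : EuclideanSpace ℝ (Fin n)) r → EuclideanSpace ℝ (Fin d),
        LipschitzWith M g ∧ θ * r ^ n ≤ μ.real (ball x r ∩ range g) := by
  have hsupp : S = μ.support := by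
    ext x
    rw [hS, Measure.mem_support_iff_forall]
    constructor
    · intro h U hU
      obtain ⟨r, hr, hrU⟩ := Metric.mem_nhds_iff.1 hU
      exact (pos_iff_ne_zero.2 (h r hr)).trans_le (measure_mono hrU)
    · intro h r hr
      exact (h _ (ball_mem_nhds x hr)).ne'
  subst hsupp
  have hdiam : ∀ r : ℝ, 0 < r →
      ((IsBounded μ.support → r ≤ diam μ.support) ↔ Vale.Agent.P120.LeDiam r μ) := by
    intro r hr
    unfold Vale.Agent.P120.LeDiam
    by_cases hb : IsBounded μ.support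
    · have hne : Metric.ediam μ.support ≠ ∞ := hb.ediam_ne_top
      rw [ENNReal.ofReal_le_iff_le_toReal hne]
      exact ⟨fun h => h hb, fun h _ => h⟩
    · have htop : Metric.ediam μ.support = ∞ := by
        by_contra hne
        exact hb (Metric.isBounded_iff_ediam_ne_top.2 hne)
      rw [htop]
      exact ⟨fun _ => le_top, fun _ h => absurd h hb⟩
  have hfin : ∀ x r, μ (ball x r) ≠ ∞ := fun x r => measure_ball_lt_top.ne
  have hAD' : Vale.Agent.P120.ADRegular n μ := by
    refine ⟨A, hA, fun x hx r hr hrd => ?_⟩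
    obtain ⟨h1, h2⟩ := hAD x hx r ⟨hr, (hdiam r hr).2 hrd⟩
    constructor
    · rw [ENNReal.ofReal_le_iff_le_toReal (hfin x r)]
      rw [div_eq_inv_mul] at h1
      exact h1
    · rw [ENNReal.le_ofReal_iff_toReal_le (hfin x r) (by positivity)]
      exact h2
  have hR' : Vale.Agent.P120.RieszBounded n μ := by
    refine ⟨√C, fun f hf ε hε => ?_⟩
    obtain ⟨h1, h2⟩ := hR f hf ε hε
    have hset : ∀ x : EuclideanSpace ℝ (Fin d), {y | ε < dist x y} = {y | ε < ‖x - y‖} := by
      intro x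
      ext y
      rw [mem_ofPred_eq, mem_ofPred_eq, dist_eq_norm]
    have hfun : ∀ x y : EuclideanSpace ℝ (Fin d),
        integrand n f x y = f y • Vale.Agent.P120.rieszKernel n (x - y) := by
      intro x y
      unfold integrand Vale.Agent.P120.rieszKernel
      rw [smul_smul, dist_eq_norm, div_eq_mul_inv]
    have htr : ∀ x, truncated n μ ε f x = Vale.Agent.P120.rieszTrunc n μ ε f x := by
      intro x
      unfold truncated Vale.Agent.P120.rieszTrunc
      rw [hset]
      simp only [hfun]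
    constructor
    · filter_upwards [h1] with x hx
      rw [hset] at hx
      exact hx.congr (Filter.Eventually.of_forall fun y => hfun x y)
    · have h3 : ∀ {V : Type} [NormedAddCommGroup V] (g : EuclideanSpace ℝ (Fin d) → V),
          eLpNorm g 2 μ ^ 2 = ∫⁻ x, ‖g x‖ₑ ^ 2 ∂μ := by
        intro V _ g
        have h := eLpNorm_nnreal_pow_eq_lintegral (f := g) (μ := μ) (p := 2) two_ne_zero
        simpa using h
      have h4 : eLpNorm (Vale.Agent.P120.rieszTrunc n μ ε f) 2 μ ^ 2 ≤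
          (ENNReal.ofReal √C * eLpNorm f 2 μ) ^ 2 := by
        have h5 : ENNReal.ofReal √(C : ℝ) ^ 2 = C := by
          rw [← ENNReal.ofReal_pow (Real.sqrt_nonneg _), Real.sq_sqrt (NNReal.coe_nonneg C),
            ENNReal.ofReal_coe_nnreal]
        rw [mul_pow, h5, h3, h3]
        simp only [htr] at h2
        exact h2
      exact (ENNReal.pow_le_pow_left_iff two_ne_zero).1 h4
  obtain ⟨θ, hθ, M, hM⟩ :=
    Vale.Agent.P120.uniformlyRectifiable_of_rieszBounded hn hnd.le hAD' hR'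
  refine ⟨θ, hθ, M, fun x hx r hrr => ?_⟩
  obtain ⟨hr, hrd⟩ := hrr
  obtain ⟨g, hg, hgm⟩ := hM x hx r hr ((hdiam r hr).1 hrd)
  refine ⟨fun z => g z, fun a b => hg a.2 b.2, ?_⟩
  have hrange : range (fun z : ball (0 : EuclideanSpace ℝ (Fin n)) r => g z) = g '' ball 0 r := by
    ext y
    constructor
    · rintro ⟨z, rfl⟩
      exact ⟨z, z.2, rfl⟩
    · rintro ⟨z, hz, rfl⟩
      exact ⟨⟨z, hz⟩, rfl⟩
  rw [hrange]
  have hne : μ (ball x r ∩ g '' ball 0 r) ≠ ∞ :=
    ne_top_of_le_ne_top (hfin x r) (measure_mono inter_subset_left)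
  exact (ENNReal.ofReal_le_iff_le_toReal hne).1 hgm

end Vale.Agent.Results.P120.RieszRegular
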