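import Vale.Agent.Lib.P120.BigPiece
import Vale.Agent.Lib.P120.Disconn

open MeasureTheory Vale.Agent.P120

namespace Vale.Agent.Results.P120.SelfSimilarUR

/-- Let `1 ≤ n < d`, let `μ` be a Radon measure on `ℝ^d` with `L²(μ)`-bounded `n`-dimensional Riesz
transform, and let `F` be a Borel set such that `ν = μ|_F` is `n`-AD-regular (for instance
`F = ℝ^d`). If `ν` has big-piece self-similarity, or if its support is quasi-self-similar, or if
its support is a bounded self-similar set, then `ν` is uniformly `n`-rectifiable. If the support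
is not a single point, then it is not uniformly disconnected and every ball centred on it contains
balls in which it is bilaterally arbitrarily close to an `n`-plane. -/
theorem result : ∀ n d : ℕ, 1 ≤ n → n < d → ∀ μ : Measure (E d), IsLocallyFiniteMeasure μ →
    RieszBounded n μ → ∀ F : Set (E d), MeasurableSet F → ADRegular n (μ.restrict F) →
      (BigPieceSelfSimilar n (μ.restrict F) → UniformlyRectifiable n (μ.restrict F)) ∧
      (QuasiSelfSimilar (μ.restrict F).support → UniformlyRectifiable n (μ.restrict F)) ∧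
      (SelfSimilar (μ.restrict F).support → Bornology.IsBounded (μ.restrict F).support →
        UniformlyRectifiable n (μ.restrict F)) ∧
      ((μ.restrict F).support.Nontrivial →
        ¬ UniformlyDisconnected (μ.restrict F).support ∧
        ∀ θ : ℝ, 0 < θ → ∀ x ∈ (μ.restrict F).support, ∀ r : ℝ, 0 < r →
          ∃ y ∈ (μ.restrict F).support, ∃ s : ℝ, 0 < s ∧ LeDiam s (μ.restrict F) ∧
            Metric.ball y s ⊆ Metric.ball x r ∧
            ∃ V : Submodule ℝ (E d), Module.finrank ℝ V = n ∧
              (∀ z ∈ (μ.restrict F).support, z ∈ Metric.ball y s →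
                ∃ v ∈ V, ‖z - (y + v)‖ ≤ θ * s) ∧
              (∀ v ∈ V, ‖v‖ < s → ∃ z ∈ (μ.restrict F).support, ‖z - (y + v)‖ ≤ θ * s)) := by
  intro n d hn hnd μ hμ hR0 F hF hAD
  have hR : RieszBounded n (μ.restrict F) := hR0.restrict hF
  have hfin : IsLocallyFiniteMeasure (μ.restrict F) := inferInstance
  have hU : BigPieceSelfSimilar n (μ.restrict F) → UniformlyRectifiable n (μ.restrict F) :=
    ur_of_bigPieceSelfSimilar hn hnd.le hAD hR
  have hQ : QuasiSelfSimilar (μ.restrict F).support → UniformlyRectifiable n (μ.restrict F) :=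
    fun h => hU (h.homogeneous hAD).bigPieceSelfSimilar
  refine ⟨hU, hQ, fun h hb => hQ (h.quasiSelfSimilar hb), ?_⟩
  intro hS
  refine ⟨not_uniformlyDisconnected hn hnd.le hAD hR hS, ?_⟩
  intro θ hθ x hx r hr
  obtain ⟨x0, hx0, r0, hr0, hr0D, hsub, V, hV, h1, h2⟩ :=
    exists_flat_ball hn hnd.le hAD hR hS θ hθ x hx r hr
  refine ⟨x0, hx0, r0, hr0, hr0D, hsub, V, hV, ?_, h2⟩
  intro z hz hzb
  obtain ⟨v, hv, h3⟩ := h1 z hz hzb
  exact ⟨v, hv, by rwa [← sub_sub]⟩

end Vale.Agent.Results.P120.SelfSimilarUR
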